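import Vale.Agent.P181.MR.Defs
import Vale.Agent.P181.SZR5.Minor

set_option autoImplicit false

/-!
# P181, MR [DES]: the design polynomial
-/

open MvPolynomial

namespace Vale.Agent.P181.MR.H662

open Vale.Agent.P181.T4 (HW)
open Vale.Agent.P181.TL (KK)
open Vale.Agent.P181.SZR5

/-- The label of a letter. -/
def lb {h B ν : ℕ} : Lt h B ν → ℕ := Sum.elim (fun z => (z.2.2 : ℕ)) (fun y => (y.2 : ℕ))

/-- The points of the moment curve. -/
noncomputable def pt (m h B ν : ℕ) : Fin m × Lt h B ν → ℂ := fun p => (lb p.2 : ℂ) ^ (p.1 : ℕ)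

/-- The columns of the minors. -/
def cl {r M h B : ℕ} (ψ : Fin M × Fin r ≃ Fin (r * M))
    (y : (Fin h × Fin B × Fin (r * M + 1)) × Fin M) : Fin (r + 1) → Lt h B (r * M + 1) :=
  Fin.cons (Sum.inl y.1) (fun i => Sum.inr (y.1.1, y.1.2.2.succAbove (ψ (y.2, i))))

lemma eval_minor {m r : ℕ} {τ : Type} (hr : r < m) (c : Fin (r + 1) → τ) (x : Fin m × τ → ℂ) :
    eval x (minor hr c) = Matrix.det (Matrix.of fun a b => x (rw' hr a, c b)) := by
  rw [minor, RingHom.map_det]
  congr 1
  ext a b
  rw [RingHom.mapMatrix_apply, Matrix.map_apply, Matrix.of_apply, Matrix.of_apply, eval_X]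

lemma det_lb {m r h B ν : ℕ} (hr : r < m) (c : Fin (r + 1) → Lt h B ν) :
    Matrix.det (Matrix.of fun a b => pt m h B ν (rw' hr a, c b)) ≠ 0 ↔
      Function.Injective fun b => lb (c b) := by
  have h1 : (Matrix.of fun a b => pt m h B ν (rw' hr a, c b)) =
      (Matrix.vandermonde fun b => ((lb (c b) : ℕ) : ℂ)).transpose := by
    ext a b
    rfl
  rw [h1, Matrix.det_transpose, Matrix.det_vandermonde_ne_zero_iff]
  constructor
  · intro h2 b b' hb
    exact h2 (congrArg (Nat.cast : ℕ → ℂ) hb)
  · intro h2 b b' hb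
    exact h2 (Nat.cast_injective hb)

lemma sum_sa {n : ℕ} (q p : Fin (n + 1)) :
    (∑ t : Fin n, if q = p.succAbove t then 1 else 0) = if q = p then 0 else 1 := by
  by_cases h : q = p
  · rw [if_pos h]
    apply Finset.sum_eq_zero
    intro t _
    rw [if_neg]
    rw [h]
    exact (Fin.succAbove_ne p t).symm
  · rw [if_neg h]
    obtain ⟨t, ht⟩ := Fin.exists_succAbove_eq h
    rw [Finset.sum_eq_single t]
    · rw [if_pos ht.symm]
    · intro t' _ ht'
      rw [if_neg]
      intro h'
      exact ht' (Fin.succAbove_right_injective (ht.trans h')).symm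
    · intro h'
      exact absurd (Finset.mem_univ _) h'

lemma sum_ne {n : ℕ} (q : Fin (n + 1)) : (∑ p : Fin (n + 1), if q = p then 0 else 1) = n := by
  have h1 : (∑ p : Fin (n + 1), if q = p then 0 else 1) + ∑ p : Fin (n + 1), (if q = p then 1 else 0)
      = n + 1 := by
    rw [← Finset.sum_add_distrib]
    have h2 : ∀ p : Fin (n + 1), ((if q = p then 0 else 1) + if q = p then 1 else 0) = 1 := by
      intro p
      split_ifs <;> rfl
    rw [Finset.sum_congr rfl fun p _ => h2 p, Finset.sum_const, Finset.card_univ,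
      Fintype.card_fin, smul_eq_mul, mul_one]
  rw [Finset.sum_ite_eq Finset.univ q, if_pos (Finset.mem_univ _)] at h1
  omega

open scoped Classical in
lemma col_deg {r M h B : ℕ} (ψ : Fin M × Fin r ≃ Fin (r * M)) :
    (∑ y : (Fin h × Fin B × Fin (r * M + 1)) × Fin M, ∑ b,
      (Pi.single (cl ψ y b) 1 : Lt h B (r * M + 1) → ℕ)) = rr M h B (r * M + 1) := by
  funext w
  rw [Finset.sum_apply]
  have h0 : ∀ y : (Fin h × Fin B × Fin (r * M + 1)) × Fin M,
      (∑ b, (Pi.single (cl ψ y b) 1 : Lt h B (r * M + 1) → ℕ)) w =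
      (if w = Sum.inl y.1 then 1 else 0) + ∑ i : Fin r,
        if w = Sum.inr (y.1.1, y.1.2.2.succAbove (ψ (y.2, i))) then 1 else 0 := by
    intro y
    rw [Finset.sum_apply, Fin.sum_univ_succ, Pi.single_apply]
    congr 1
    exact Finset.sum_congr rfl fun i _ => Pi.single_apply _ _ _
  rw [Finset.sum_congr rfl fun y _ => h0 y, Finset.sum_add_distrib]
  rcases w with z | ⟨hb, q⟩
  · have h1 : ∑ y : (Fin h × Fin B × Fin (r * M + 1)) × Fin M, (∑ i : Fin r,
        if (Sum.inl z : Lt h B (r * M + 1)) = Sum.inr (y.1.1, y.1.2.2.succAbove (ψ (y.2, i)))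
          then 1 else 0) = 0 :=
      Finset.sum_eq_zero fun y _ => Finset.sum_eq_zero fun i _ => if_neg (by simp)
    rw [h1, add_zero, Fintype.sum_prod_type]
    have h2 : ∀ x : Fin h × Fin B × Fin (r * M + 1), (∑ _u : Fin M,
        if (Sum.inl z : Lt h B (r * M + 1)) = Sum.inl x then 1 else 0) =
        if z = x then M else 0 := by
      intro x
      rw [Finset.sum_const, Finset.card_univ, Fintype.card_fin]
      by_cases hz : z = x
      · rw [if_pos hz, if_pos (by rw [hz]), smul_eq_mul, mul_one]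
      · rw [if_neg hz, if_neg (fun h' => hz (Sum.inl_injective h')), smul_zero]
    rw [Finset.sum_congr rfl fun x _ => h2 x, Finset.sum_ite_eq Finset.univ z,
      if_pos (Finset.mem_univ _)]
    rfl
  · have h1 : ∑ y : (Fin h × Fin B × Fin (r * M + 1)) × Fin M,
        (if (Sum.inr (hb, q) : Lt h B (r * M + 1)) = Sum.inl y.1 then 1 else 0) = 0 :=
      Finset.sum_eq_zero fun y _ => if_neg (by simp)
    rw [h1, zero_add, Fintype.sum_prod_type, Fintype.sum_prod_type]
    have h2 : ∀ h' : Fin h, (∑ kp : Fin B × Fin (r * M + 1), ∑ u : Fin M, ∑ i : Fin r,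
        if (Sum.inr (hb, q) : Lt h B (r * M + 1)) =
          Sum.inr (h', kp.2.succAbove (ψ (u, i))) then 1 else 0) =
        if hb = h' then B * (r * M) else 0 := by
      intro h'
      by_cases hh : hb = h'
      · rw [if_pos hh, Fintype.sum_prod_type]
        have h3 : ∀ (k : Fin B) (p : Fin (r * M + 1)), (∑ u : Fin M, ∑ i : Fin r,
            if (Sum.inr (hb, q) : Lt h B (r * M + 1)) =
              Sum.inr (h', p.succAbove (ψ (u, i))) then 1 else 0) = if q = p then 0 else 1 := by
          intro k p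
          rw [← Fintype.sum_prod_type' (f := fun (u : Fin M) (i : Fin r) =>
            if (Sum.inr (hb, q) : Lt h B (r * M + 1)) =
              Sum.inr (h', p.succAbove (ψ (u, i))) then 1 else 0), ← sum_sa q p,
            ← ψ.sum_comp]
          refine Finset.sum_congr rfl fun x _ => ?_
          refine if_congr ?_ rfl rfl
          constructor
          · intro h4
            exact congrArg Prod.snd (Sum.inr_injective h4)
          · intro h4
            rw [h4, hh]
        rw [Finset.sum_congr rfl fun k _ => Finset.sum_congr rfl fun p _ => h3 k p, sum_ne,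
          Finset.sum_const, Finset.card_univ, Fintype.card_fin, smul_eq_mul]
      · rw [if_neg hh]
        refine Finset.sum_eq_zero fun kp _ => Finset.sum_eq_zero fun u _ =>
          Finset.sum_eq_zero fun i _ => if_neg ?_
        intro h4
        exact hh (congrArg Prod.fst (Sum.inr_injective h4))
    rw [Finset.sum_congr rfl fun x _ => h2 x, Finset.sum_ite_eq Finset.univ hb,
      if_pos (Finset.mem_univ _)]
    rfl

/-- **[DES]** -/
theorem desM : DesM := by
  classical
  intro m R M h B ν hR hRm hν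
  obtain ⟨r, rfl⟩ : ∃ r, R = r + 1 := ⟨R - 1, by omega⟩
  have hν' : ν = r * M + 1 := by rw [hν, Nat.add_sub_cancel]
  subst hν'
  have hr : r < m := hRm
  let ψ : Fin M × Fin r ≃ Fin (r * M) := finProdFinEquiv.trans (finCongr (mul_comm M r))
  set P : MvPolynomial (Fin m × Lt h B (r * M + 1)) ℂ := ∏ y, minor hr (cl ψ y) with hP
  have hev : ∀ e : Equiv.Perm (Lt h B (r * M + 1)),
      eval (fun p : Fin m × Lt h B (r * M + 1) => pt m h B (r * M + 1) (p.1, e p.2)) P =
      ∏ y, Matrix.det (Matrix.of fun a b =>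
        pt m h B (r * M + 1) (rw' hr a, e (cl (h := h) (B := B) ψ y b))) := by
    intro e
    rw [hP, map_prod]
    exact Finset.prod_congr rfl fun y _ => eval_minor hr _ _
  refine ⟨P, pt m h B (r * M + 1), ⟨?_, ?_⟩, ?_, ?_⟩
  · have h1 := HW_prod (n := m) (Finset.univ : Finset ((Fin h × Fin B × Fin (r * M + 1)) × Fin M))
      (fun _ => fun i : Fin m => if (i : ℕ) ≤ r then 1 else 0) (fun y => minor hr (cl ψ y))
      (fun y _ => minor_HW hr _)
    have h2 : (∑ _y : (Fin h × Fin B × Fin (r * M + 1)) × Fin M,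
        (fun i : Fin m => if (i : ℕ) ≤ r then 1 else 0)) =
        fun i : Fin m => if (i : ℕ) < r + 1 then h * B * (r * M + 1) * M else 0 := by
      funext i
      rw [Finset.sum_apply, Finset.sum_const, Finset.card_univ, smul_eq_mul]
      by_cases hi : (i : ℕ) ≤ r
      · rw [if_pos hi, if_pos (Nat.lt_succ_of_le hi)]
        simp only [Fintype.card_prod, Fintype.card_fin]
        ring
      · rw [if_neg hi, if_neg (fun h' => hi (Nat.le_of_lt_succ h')), mul_zero]
    rw [← h2]
    exact h1
  · have h1 := Col.prod (n := m) (Finset.univ : Finset ((Fin h × Fin B × Fin (r * M + 1)) × Fin M))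
      (fun y _ => minor_col hr (cl ψ y))
    rw [col_deg] at h1
    exact h1
  · have h1 := hev 1
    have h2 : (fun p : Fin m × Lt h B (r * M + 1) => pt m h B (r * M + 1)
        (p.1, (1 : Equiv.Perm (Lt h B (r * M + 1))) p.2)) = pt m h B (r * M + 1) := rfl
    rw [h2] at h1
    rw [h1]
    refine Finset.prod_ne_zero_iff.2 fun y _ => ?_
    refine (det_lb hr (cl ψ y)).2 ?_
    have h3 : (fun b => lb (cl ψ y b)) = Fin.cons (y.1.2.2 : ℕ)
        (fun i : Fin r => ((y.1.2.2.succAbove (ψ (y.2, i)) : Fin (r * M + 1)) : ℕ)) := by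
      funext b
      refine Fin.cases rfl (fun i => rfl) b
    rw [h3]
    refine Fin.cons_injective_iff.2 ⟨?_, ?_⟩
    · rintro ⟨i, hi⟩
      exact Fin.succAbove_ne _ _ (Fin.ext hi)
    · intro i j hij
      have h4 := ψ.injective (Fin.succAbove_right_injective (Fin.ext hij))
      exact congrArg Prod.snd h4
  · intro e he1 he2 hne
    rw [hev e]
    -- a moved main letter
    obtain ⟨z, hz⟩ : ∃ z, e (Sum.inl z) ≠ Sum.inl z := by
      by_contra hcon
      push Not at hcon
      apply hne
      ext w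
      rcases w with z | y
      · rw [hcon z, Equiv.Perm.one_apply]
      · rw [he1 y, Equiv.Perm.one_apply]
    obtain ⟨p, hp⟩ := he2 z
    have hpz : p ≠ z.2.2 := by
      intro h'
      apply hz
      rw [hp, h']
    obtain ⟨t, ht⟩ := Fin.exists_succAbove_eq hpz
    obtain ⟨⟨u, i⟩, hui⟩ := ψ.surjective t
    refine Finset.prod_eq_zero (Finset.mem_univ (z, u)) ?_
    by_contra hcon
    have h1 : Function.Injective fun b => lb (e (cl ψ (z, u) b)) :=
      (det_lb hr (fun b => e (cl ψ (z, u) b))).1 hcon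
    have h2 : lb (e (cl ψ (z, u) 0)) = lb (e (cl ψ (z, u) i.succ)) := by
      have h3 : cl ψ (z, u) 0 = Sum.inl z := rfl
      have h4 : cl ψ (z, u) i.succ = Sum.inr (z.1, z.2.2.succAbove (ψ (u, i))) := rfl
      rw [h3, h4, he1, hp, hui, ht]
      rfl
    exact (Fin.succ_ne_zero i) (h1 h2).symm

end Vale.Agent.P181.MR.H662
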